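import Vale.Agent.H82.AEC.Loc.Degree

/-!
Shelah's eventual categoricity conjecture for abstract elementary classes of structures of
bounded Gaifman degree, in vocabularies whose function symbols are unary and whose relation
symbols have positive arity: the transfer holds above `2 ^ lam`, and the threshold
`(2 ^ lam)⁺` cannot be lowered.
-/

universe u

namespace Vale.Agent.Results.P307.A00_BoundedDegreeCategoricity

open FirstOrder Vale.Agent.H82.AEC

/-- Let `lam` be an infinite cardinal.

(1) Let `L` be a vocabulary all of whose function symbols are unary and which has no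
relation symbols of arity zero, and let `(mem, strong)` be an abstract elementary class of
`L`-structures with Löwenheim–Skolem number at most `lam` such that in every member every
element has at most `lam` Gaifman neighbours.  If the class is categorical in some cardinal
`kappa > 2 ^ lam`, then it is categorical in every cardinal `kappa' > 2 ^ lam`.

(2) There is such a class (in a vocabulary of unary relation symbols) which is categorical
in every cardinal `kappa > 2 ^ lam` and in no cardinal `kappa` with `2 ≤ kappa ≤ 2 ^ lam`.
So for these classes the least threshold is exactly `(2 ^ lam)⁺`. -/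
theorem result (lam : Cardinal.{u}) (hlam : Cardinal.aleph0 ≤ lam) :
    (∀ L : FirstOrder.Language.{u, u},
      (∀ n, n ≠ 1 → IsEmpty (L.Functions n)) → IsEmpty (L.Relations 0) →
      ∀ (mem : (M : Type u) → [L.Structure M] → Prop)
        (strong : (N : Type u) → [L.Structure N] → L.Substructure N → Prop),
        IsAEC L mem strong → LSAxiom L mem strong lam →
        (∀ (M : Type u) [L.Structure M], mem M → ∀ x : M,
          Cardinal.mk ↥{y : M | GAdj L M x y ∨ GAdj L M y x} ≤ lam) →
        ∀ kappa kappa' : Cardinal.{u}, 2 ^ lam < kappa → 2 ^ lam < kappa' →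
          Categorical L mem kappa → Categorical L mem kappa') ∧
    (∃ L : FirstOrder.Language.{u, u},
      (∀ n, IsEmpty (L.Functions n)) ∧ (∀ n, n ≠ 1 → IsEmpty (L.Relations n)) ∧
      ∃ (mem : (M : Type u) → [L.Structure M] → Prop)
        (strong : (N : Type u) → [L.Structure N] → L.Substructure N → Prop),
        IsAEC L mem strong ∧ LSAxiom L mem strong lam ∧
        (∀ (M : Type u) [L.Structure M], mem M → ∀ x : M,
          Cardinal.mk ↥{y : M | GAdj L M x y ∨ GAdj L M y x} ≤ lam) ∧
        (∀ kappa : Cardinal.{u}, 2 ^ lam < kappa → Categorical L mem kappa) ∧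
        (∀ kappa : Cardinal.{u}, 2 ≤ kappa → kappa ≤ 2 ^ lam →
          ¬ Categorical L mem kappa)) := by
  refine ⟨?_, ?_⟩
  · intro L hF hR mem strong hK hLS hdeg kappa kappa' h1 h2 hcat
    have : LocalVoc L := ⟨hF, hR⟩
    exact degree_categoricity_transfer hK hLS hdeg h1 h2 hcat
  · obtain ⟨L, hF, hR, mem, strong, hK, hLS, hup, hdown⟩ := threshold_sharp lam hlam
    have : Unary L := ⟨hF, hR⟩
    exact ⟨L, hF, hR, mem, strong, hK, hLS, fun M _ _ x => degree_of_unary hlam M x, hup, hdown⟩

end Vale.Agent.Results.P307.A00_BoundedDegreeCategoricity
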