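import Vale.Agent.H82.AEC.Sharp

/-!
Shelah's eventual categoricity conjecture for abstract elementary classes in a vocabulary
all of whose symbols are unary relation symbols: the transfer holds above `2 ^ lam`, and the
threshold `(2 ^ lam)⁺` cannot be lowered.
-/

universe u

namespace Vale.Agent.Results.P307.A0_MonadicThresholdSharp

open FirstOrder Vale.Agent.H82.AEC

/-- Let `lam` be an infinite cardinal.

(1) For every vocabulary `L` with no function symbols and only unary relation symbols and
every abstract elementary class `(mem, strong)` of `L`-structures with Löwenheim–Skolem number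
at most `lam`: if the class is categorical in some cardinal `kappa > 2 ^ lam`, then it is
categorical in every cardinal `kappa' > 2 ^ lam`.

(2) There are such a vocabulary and such a class which is categorical in every cardinal
`kappa > 2 ^ lam` and in no cardinal `kappa` with `2 ≤ kappa ≤ 2 ^ lam`.  So for these
vocabularies the least threshold is exactly `(2 ^ lam)⁺`. -/
theorem result (lam : Cardinal.{u}) (hlam : Cardinal.aleph0 ≤ lam) :
    (∀ L : FirstOrder.Language.{u, u},
      (∀ n, IsEmpty (L.Functions n)) → (∀ n, n ≠ 1 → IsEmpty (L.Relations n)) →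
      ∀ (mem : (M : Type u) → [L.Structure M] → Prop)
        (strong : (N : Type u) → [L.Structure N] → L.Substructure N → Prop),
        IsAEC L mem strong → LSAxiom L mem strong lam →
        ∀ kappa kappa' : Cardinal.{u}, 2 ^ lam < kappa → 2 ^ lam < kappa' →
          Categorical L mem kappa → Categorical L mem kappa') ∧
    (∃ L : FirstOrder.Language.{u, u},
      (∀ n, IsEmpty (L.Functions n)) ∧ (∀ n, n ≠ 1 → IsEmpty (L.Relations n)) ∧
      ∃ (mem : (M : Type u) → [L.Structure M] → Prop)
        (strong : (N : Type u) → [L.Structure N] → L.Substructure N → Prop),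
        IsAEC L mem strong ∧ LSAxiom L mem strong lam ∧
        (∀ kappa : Cardinal.{u}, 2 ^ lam < kappa → Categorical L mem kappa) ∧
        (∀ kappa : Cardinal.{u}, 2 ≤ kappa → kappa ≤ 2 ^ lam →
          ¬ Categorical L mem kappa)) := by
  refine ⟨?_, threshold_sharp lam hlam⟩
  intro L hF hR mem strong hK hLS kappa kappa' h1 h2 hcat
  have : Unary L := ⟨hF, hR⟩
  exact categoricity_transfer hK hLS h1 h2 hcat

end Vale.Agent.Results.P307.A0_MonadicThresholdSharp
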