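import Vale.Agent.H82.AEC.Main

/-!
Shelah's eventual categoricity conjecture for abstract elementary classes in a vocabulary
all of whose symbols are unary relation symbols, with the explicit threshold `(2 ^ lam)⁺`.
-/

universe u

namespace Vale.Agent.Results.P307.A_MonadicCategoricity

open FirstOrder Vale.Agent.H82.AEC

/-- Let `L` be a vocabulary with no function symbols and only unary relation symbols, and let
`(mem, strong)` be an abstract elementary class of `L`-structures with Löwenheim–Skolem
number at most `lam`.  If the class is categorical in some cardinal `kappa > 2 ^ lam`, then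
it is categorical in every cardinal `kappa' > 2 ^ lam`. -/
theorem result (L : FirstOrder.Language.{u, u})
    (hF : ∀ n, IsEmpty (L.Functions n)) (hR : ∀ n, n ≠ 1 → IsEmpty (L.Relations n))
    (mem : (M : Type u) → [L.Structure M] → Prop)
    (strong : (N : Type u) → [L.Structure N] → L.Substructure N → Prop)
    (hK : IsAEC L mem strong) (lam : Cardinal.{u}) (hLS : LSAxiom L mem strong lam)
    (kappa kappa' : Cardinal.{u}) (h1 : 2 ^ lam < kappa) (h2 : 2 ^ lam < kappa')
    (hcat : Categorical L mem kappa) : Categorical L mem kappa' := by
  have : Unary L := ⟨hF, hR⟩
  exact categoricity_transfer hK hLS h1 h2 hcat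

end Vale.Agent.Results.P307.A_MonadicCategoricity
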